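import Vale.Agent.P327.Auto

namespace Vale.Agent.Results.P327.Rigidity

open Vale.Agent.P327

/-- Every automorphism of the Turing degrees is the identity. -/
theorem result : ∀ π : Deg ≃ Deg, (∀ a b : Deg, Deg.le (π a) (π b) ↔ Deg.le a b) →
    ∀ a : Deg, π a = a :=
  fun π hπ a => deg_rigid π hπ a

end Vale.Agent.Results.P327.Rigidity
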